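import Vale.Agent.P181.O2.Cnt

set_option autoImplicit false

/-!
# P181, O2 (G): the gain
-/

namespace Vale.Agent.P181.O2.H376

open Vale.Agent.P181.O2

/-- Double counting with fibres of size at most `D`. -/
lemma sum_fib {α β : Type*} [DecidableEq β] (s : Finset α) (t : Finset β) (f : α → β)
    (hf : ∀ a ∈ s, f a ∈ t) (g : β → ℕ) (D : ℕ)
    (hD : ∀ b ∈ t, (s.filter (fun a => f a = b)).card ≤ D) :
    ∑ a ∈ s, g (f a) ≤ D * ∑ b ∈ t, g b := by
  rw [← Finset.sum_fiberwise_of_maps_to hf (fun a => g (f a)), Finset.mul_sum]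
  apply Finset.sum_le_sum
  intro b hb
  calc ∑ a ∈ s.filter (fun a => f a = b), g (f a)
      = ∑ a ∈ s.filter (fun a => f a = b), g b :=
        Finset.sum_congr rfl fun a ha => by rw [(Finset.mem_filter.1 ha).2]
    _ = (s.filter (fun a => f a = b)).card * g b := by rw [Finset.sum_const, smul_eq_mul]
    _ ≤ D * g b := Nat.mul_le_mul_right _ (hD b hb)

lemma fst_le {U : Multiset (ℕ × ℕ)} {p : ℕ × ℕ} (hp : p ∈ U) : p.1 ≤ (U.map Prod.fst).sum :=
  Multiset.single_le_sum (fun _ _ => Nat.zero_le _) _ (Multiset.mem_map_of_mem _ hp)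

lemma snd_le {U : Multiset (ℕ × ℕ)} {p : ℕ × ℕ} (hp : p ∈ U) : p.2 ≤ (U.map Prod.snd).sum :=
  Multiset.single_le_sum (fun _ _ => Nat.zero_le _) _ (Multiset.mem_map_of_mem _ hp)

lemma card_le_sum (U : Multiset (ℕ × ℕ)) (h0 : ((0 : ℕ), (0 : ℕ)) ∉ U) :
    Multiset.card U ≤ (U.map Prod.fst).sum + (U.map Prod.snd).sum := by
  induction U using Multiset.induction_on with
  | empty => simp
  | cons p U ih =>
    rw [Multiset.mem_cons, not_or] at h0
    have h1 := ih h0.2
    rw [Multiset.card_cons, Multiset.map_cons, Multiset.map_cons, Multiset.sum_cons,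
      Multiset.sum_cons]
    have h2 : 1 ≤ p.1 + p.2 := by
      by_contra h
      apply h0.1
      ext
      · simp only
        omega
      · simp only
        omega
    omega

lemma mem_US {N t : ℕ} {U : Multiset (ℕ × ℕ)} :
    U ∈ US N t ↔ ((0 : ℕ), (0 : ℕ)) ∉ U ∧ (U.map Prod.fst).sum = N ∧
      (U.map Prod.snd).sum = t := by
  classical
  unfold US
  rw [Finset.mem_filter]
  refine ⟨fun h => h.2, fun h => ⟨?_, h⟩⟩
  obtain ⟨h0, h1, h2⟩ := h
  rw [Multiset.mem_toFinset, Multiset.mem_powerset, Multiset.le_iff_count]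
  intro p
  by_cases hp : p ∈ U
  · have h3 := fst_le hp
    have h4 := snd_le hp
    have h5 : Multiset.count p (Finset.range (N + 1) ×ˢ Finset.range (t + 1)).val = 1 := by
      apply Multiset.count_eq_one_of_mem (Finset.nodup _)
      rw [Finset.mem_val, Finset.mem_product, Finset.mem_range, Finset.mem_range]
      omega
    rw [Multiset.count_nsmul, h5, mul_one]
    have h6 := card_le_sum U h0
    have h7 := Multiset.count_le_card p U
    omega
  · rw [Multiset.count_eq_zero_of_notMem hp]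
    exact Nat.zero_le _

lemma card_col (U : Multiset (ℕ × ℕ)) :
    Multiset.card (U.filter fun p => 0 < p.2) ≤ (U.map Prod.snd).sum := by
  induction U using Multiset.induction_on with
  | empty => simp
  | cons p U ih =>
    rw [Multiset.map_cons, Multiset.sum_cons]
    by_cases hp : 0 < p.2
    · have e : (p ::ₘ U).filter (fun p => 0 < p.2) = p ::ₘ U.filter (fun p => 0 < p.2) :=
        Multiset.filter_cons_of_pos _ hp
      rw [e, Multiset.card_cons]
      omega
    · have e : (p ::ₘ U).filter (fun p => 0 < p.2) = U.filter (fun p => 0 < p.2) :=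
        Multiset.filter_cons_of_neg _ hp
      rw [e]
      omega

/-- Two unused colours. -/
lemma exists_col {t : ℕ} (U : Multiset (ℕ × ℕ)) (h : (U.map Prod.snd).sum ≤ t) :
    ∃ z : ℕ × ℕ, z.1 ≠ z.2 ∧ (1 ≤ z.1 ∧ z.1 ≤ t + 2) ∧ (1 ≤ z.2 ∧ z.2 ≤ t + 2) ∧
      ∀ p ∈ U, 0 < p.2 → p.1 ≠ z.1 ∧ p.1 ≠ z.2 := by
  classical
  obtain ⟨B, hB⟩ : ∃ B, B = ((U.filter fun p => 0 < p.2).map Prod.fst).toFinset := ⟨_, rfl⟩
  have h1 : B.card ≤ t := by
    rw [hB]
    refine (Multiset.toFinset_card_le _).trans ?_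
    rw [Multiset.card_map]
    exact (card_col U).trans h
  have h2 : 1 < (Finset.Icc 1 (t + 2) \ B).card := by
    have h3 := Finset.le_card_sdiff B (Finset.Icc 1 (t + 2))
    rw [Nat.card_Icc] at h3
    omega
  obtain ⟨x, hx, y, hy, hxy⟩ := Finset.one_lt_card.1 h2
  rw [Finset.mem_sdiff, Finset.mem_Icc] at hx hy
  refine ⟨(x, y), hxy, hx.1, hy.1, fun p hp hp2 => ?_⟩
  have h4 : p.1 ∈ B := by
    rw [hB, Multiset.mem_toFinset]
    exact Multiset.mem_map_of_mem _ (Multiset.mem_filter.2 ⟨hp, hp2⟩)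
  refine ⟨fun e => hx.2 ?_, fun e => hy.2 ?_⟩
  · have e' : p.1 = x := e
    rwa [e'] at h4
  · have e' : p.1 = y := e
    rwa [e'] at h4

/-- The shift. -/
def sh (p : ℕ × ℕ) : ℕ × ℕ := (p.1 + 1, p.2)

lemma sh_inj : Function.Injective sh := by
  rintro ⟨a, b⟩ ⟨c, d⟩ h
  simp only [sh, Prod.mk.injEq] at h
  ext
  · simp only
    omega
  · exact h.2

lemma sum_sh_fst (U : Multiset (ℕ × ℕ)) :
    ((U.map sh).map Prod.fst).sum = (U.map Prod.fst).sum + Multiset.card U := by
  induction U using Multiset.induction_on with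
  | empty => simp
  | cons p U ih =>
    rw [Multiset.map_cons, Multiset.map_cons, Multiset.sum_cons, ih, Multiset.map_cons,
      Multiset.sum_cons, Multiset.card_cons]
    simp only [sh]
    omega

lemma sum_sh_snd (U : Multiset (ℕ × ℕ)) :
    ((U.map sh).map Prod.snd).sum = (U.map Prod.snd).sum := by
  rw [Multiset.map_map]
  rfl

/-- The target state. -/
def tg (H : ℕ) (V : Multiset (ℕ × ℕ)) : Multiset (ℕ × ℕ) := (H, 0) ::ₘ V.map sh

lemma c2_tg {c2 : Multiset (ℕ × ℕ) → ℕ} (hP : PlainW c2) (hS : ShiftW c2) (H : ℕ)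
    (V : Multiset (ℕ × ℕ)) : c2 V ≤ c2 (tg H V) := by
  rw [tg, hP]
  exact hS V

/-- The sizes of the letters. -/
def zs (U : Multiset (ℕ × ℕ)) : Multiset ℕ := U.map fun p => p.1 + p.2

open scoped Classical in
/-- The target state is good. -/
lemma tg_mem {q t N H : ℕ} {V : Multiset (ℕ × ℕ)} {P : Multiset ℕ → Prop}
    (hP : ∀ K : Multiset ℕ, Multiset.card K ≤ 11 * q + 1 →
      (∀ x ∈ K, 2 ≤ x ∧ x ≤ 40 * q) → P K) (hq : 10 ≤ q) (htq : t ≤ q)
    (hV0 : ∀ p ∈ V, 1 ≤ p.1 + p.2) (hV1 : ∀ p ∈ V, p.1 ≤ 10 * q)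
    (hVc : Multiset.card V ≤ 11 * q) (hVs : (V.map Prod.snd).sum = t - 2)
    (hVf : (V.map Prod.fst).sum + Multiset.card V + H = N) (hH : 2 ≤ H) (hH' : H ≤ 40 * q) :
      tg H V ∈ (US N (t - 2)).filter (fun U => P (zs U)) := by
  rw [Finset.mem_filter, mem_US]
  refine ⟨⟨?_, ?_, ?_⟩, hP _ ?_ ?_⟩
  · rw [tg, Multiset.mem_cons, not_or]
    constructor
    · intro h
      have := congrArg Prod.fst h
      simp only at this
      omega
    · intro h
      rw [Multiset.mem_map] at h
      obtain ⟨p, _, hp⟩ := h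
      have := congrArg Prod.fst hp
      simp only [sh] at this
      omega
  · rw [tg, Multiset.map_cons, Multiset.sum_cons, sum_sh_fst]
    simp only
    omega
  · rw [tg, Multiset.map_cons, Multiset.sum_cons, sum_sh_snd, hVs]
    simp only
    omega
  · rw [zs, Multiset.card_map, tg, Multiset.card_cons, Multiset.card_map]
    omega
  · intro x hx
    rw [zs, tg, Multiset.map_cons, Multiset.mem_cons] at hx
    rcases hx with rfl | hx
    · omega
    · rw [Multiset.mem_map] at hx
      obtain ⟨p, hp, rfl⟩ := hx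
      rw [Multiset.mem_map] at hp
      obtain ⟨r, hr, rfl⟩ := hp
      have h1 := hV0 r hr
      have h2 := hV1 r hr
      have h3 := snd_le hr
      simp only [sh]
      omega

open scoped Classical in
/-- **(G)** for every property of the sizes which holds for small sizes and few letters. -/
theorem gain_gen {c c2 : Multiset (ℕ × ℕ) → ℕ} (hPull : PullW c c2) (hPl : PlainW c2)
    (hSh : ShiftW c2) {q t N w : ℕ} {P : Multiset ℕ → Prop}
    (hP : ∀ K : Multiset ℕ, Multiset.card K ≤ 11 * q + 1 →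
      (∀ x ∈ K, 2 ≤ x ∧ x ≤ 40 * q) → P K) (ht2 : 2 ≤ t) (htq : t ≤ q) (hq : 10 ≤ q)
    (hNw : N + 20 * q ≤ w) :
    ∑ U ∈ (US N t).filter (SmallU q), c U ≤
      (w + 2) ^ 8 * ∑ U ∈ (US (N + 20 * q) (t - 2)).filter (fun U => P (zs U)), c2 U := by
  choose z hz using fun (U : Multiset (ℕ × ℕ)) =>
    (show ∃ z : ℕ × ℕ, (U.map Prod.snd).sum ≤ t → (z.1 ≠ z.2 ∧ (1 ≤ z.1 ∧ z.1 ≤ t + 2) ∧
      (1 ≤ z.2 ∧ z.2 ≤ t + 2) ∧ ∀ p ∈ U, 0 < p.2 → p.1 ≠ z.1 ∧ p.1 ≠ z.2) by
      by_cases h : (U.map Prod.snd).sum ≤ t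
      · obtain ⟨z, hz⟩ := exists_col U h
        exact ⟨z, fun _ => hz⟩
      · exact ⟨(0, 0), fun h' => absurd h' h⟩)
  set S := (US N t).filter (SmallU q) with hS
  set T := (US (N + 20 * q) (t - 2)).filter (fun U => P (zs U)) with hT
  have hSm : ∀ U ∈ S, ((0 : ℕ), (0 : ℕ)) ∉ U ∧ (U.map Prod.fst).sum = N ∧
      (U.map Prod.snd).sum = t ∧ (∀ p ∈ U, p.1 ≤ 10 * q) ∧ Multiset.card U ≤ 11 * q := by
    intro U hU
    rw [hS, Finset.mem_filter, mem_US] at hU
    exact ⟨hU.1.1, hU.1.2.1, hU.1.2.2, hU.2.1, hU.2.2⟩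
  -- the two maps
  let V1 : (Σ _ : Multiset (ℕ × ℕ), ℕ × ℕ) → Multiset (ℕ × ℕ) := fun x =>
    ((z x.1).1, x.2.2 - 2) ::ₘ x.1.erase x.2
  let H1 : (Σ _ : Multiset (ℕ × ℕ), ℕ × ℕ) → ℕ := fun x =>
    20 * q + x.2.1 - (z x.1).1 - Multiset.card x.1
  let V2 : (Σ _ : Multiset (ℕ × ℕ), Σ _ : ℕ × ℕ, ℕ × ℕ) → Multiset (ℕ × ℕ) := fun x =>
    ((z x.1).1, x.2.1.2 - 1) ::ₘ ((z x.1).2, x.2.2.2 - 1) ::ₘ (x.1.erase x.2.1).erase x.2.2
  let H2 : (Σ _ : Multiset (ℕ × ℕ), Σ _ : ℕ × ℕ, ℕ × ℕ) → ℕ := fun x =>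
    20 * q + x.2.1.1 + x.2.2.1 - (z x.1).1 - (z x.1).2 - Multiset.card x.1
  let s1 : Finset (Σ _ : Multiset (ℕ × ℕ), ℕ × ℕ) :=
    S.sigma fun U => U.toFinset.filter (fun p => 2 ≤ p.2)
  let s2 : Finset (Σ _ : Multiset (ℕ × ℕ), Σ _ : ℕ × ℕ, ℕ × ℕ) :=
    S.sigma fun U => (U.toFinset.filter (fun p => 1 ≤ p.2)).sigma
      fun p => (U.erase p).toFinset.filter (fun p => 1 ≤ p.2)
  -- the facts
  have f1 : ∀ x ∈ s1, x.1 ∈ S ∧ x.2 ∈ x.1 ∧ 2 ≤ x.2.2 := by
    intro x hx
    obtain ⟨h, h2⟩ := Finset.mem_sigma.1 hx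
    rw [Finset.mem_filter, Multiset.mem_toFinset] at h2
    exact ⟨h, h2.1, h2.2⟩
  have f2 : ∀ x ∈ s2, x.1 ∈ S ∧ x.2.1 ∈ x.1 ∧ 1 ≤ x.2.1.2 ∧ x.2.2 ∈ x.1.erase x.2.1 ∧
      1 ≤ x.2.2.2 := by
    intro x hx
    obtain ⟨h, h2⟩ := Finset.mem_sigma.1 hx
    obtain ⟨h3, h4⟩ := Finset.mem_sigma.1 h2
    rw [Finset.mem_filter, Multiset.mem_toFinset] at h3 h4
    exact ⟨h, h3.1, h3.2, h4.1, h4.2⟩
  have m1 : ∀ x ∈ s1, tg (H1 x) (V1 x) ∈ T := by
    rintro ⟨U, p⟩ hx
    obtain ⟨hU, hp, hp2⟩ := f1 _ hx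
    simp only at hU hp hp2
    obtain ⟨g1, g2, g3, g4, g5⟩ := hSm U hU
    obtain ⟨-, g7, -, -⟩ := hz U g3.le
    have e1 := Multiset.cons_erase hp
    have e2 : (U.map Prod.fst).sum = p.1 + ((U.erase p).map Prod.fst).sum := by
      conv_lhs => rw [← e1, Multiset.map_cons, Multiset.sum_cons]
    have e3 : (U.map Prod.snd).sum = p.2 + ((U.erase p).map Prod.snd).sum := by
      conv_lhs => rw [← e1, Multiset.map_cons, Multiset.sum_cons]
    have e4 : Multiset.card U = Multiset.card (U.erase p) + 1 := by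
      conv_lhs => rw [← e1, Multiset.card_cons]
    have e5 := g4 p hp
    have c1 : Multiset.card (V1 ⟨U, p⟩) = Multiset.card U := by
      simp only [V1, Multiset.card_cons]
      omega
    have c2' : ((V1 ⟨U, p⟩).map Prod.fst).sum = (z U).1 + ((U.erase p).map Prod.fst).sum := by
      simp only [V1, Multiset.map_cons, Multiset.sum_cons]
    have c3 : ((V1 ⟨U, p⟩).map Prod.snd).sum = (p.2 - 2) + ((U.erase p).map Prod.snd).sum := by
      simp only [V1, Multiset.map_cons, Multiset.sum_cons]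
    have c4 : H1 ⟨U, p⟩ = 20 * q + p.1 - (z U).1 - Multiset.card U := rfl
    have c5 : ∀ r ∈ V1 ⟨U, p⟩, r = ((z U).1, p.2 - 2) ∨ r ∈ U := by
      intro r hr
      simp only [V1, Multiset.mem_cons] at hr
      rcases hr with hr | hr
      · exact Or.inl hr
      · exact Or.inr (Multiset.mem_of_mem_erase hr)
    refine tg_mem (t := t) hP hq htq ?_ ?_ (by omega) (by omega) (by omega) (by omega) (by omega)
    · intro r hr
      rcases c5 r hr with h | h
      · rw [h]
        simp only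
        omega
      · by_contra h'
        apply g1
        have : r = (0, 0) := by
          ext
          · simp only
            omega
          · simp only
            omega
        rwa [this] at h
    · intro r hr
      rcases c5 r hr with h | h
      · rw [h]
        simp only
        omega
      · exact g4 r h
  have m2 : ∀ x ∈ s2, tg (H2 x) (V2 x) ∈ T := by
    rintro ⟨U, p, p'⟩ hx
    obtain ⟨hU, hp, hp2, hp', hp2'⟩ := f2 _ hx
    simp only at hU hp hp2 hp' hp2'
    obtain ⟨g1, g2, g3, g4, g5⟩ := hSm U hU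
    obtain ⟨-, g7, g8, -⟩ := hz U g3.le
    have e1 := Multiset.cons_erase hp
    have e1' := Multiset.cons_erase hp'
    have e2 : (U.map Prod.fst).sum = p.1 + (p'.1 + (((U.erase p).erase p').map Prod.fst).sum) := by
      conv_lhs => rw [← e1, ← e1', Multiset.map_cons, Multiset.sum_cons, Multiset.map_cons,
        Multiset.sum_cons]
    have e3 : (U.map Prod.snd).sum = p.2 + (p'.2 + (((U.erase p).erase p').map Prod.snd).sum) := by
      conv_lhs => rw [← e1, ← e1', Multiset.map_cons, Multiset.sum_cons, Multiset.map_cons,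
        Multiset.sum_cons]
    have e4 : Multiset.card U = Multiset.card ((U.erase p).erase p') + 1 + 1 := by
      conv_lhs => rw [← e1, ← e1', Multiset.card_cons, Multiset.card_cons]
    have e5 := g4 p hp
    have e6 := g4 p' (Multiset.mem_of_mem_erase hp')
    have c1 : Multiset.card (V2 ⟨U, p, p'⟩) = Multiset.card U := by
      simp only [V2, Multiset.card_cons]
      omega
    have c2' : ((V2 ⟨U, p, p'⟩).map Prod.fst).sum =
        (z U).1 + ((z U).2 + (((U.erase p).erase p').map Prod.fst).sum) := by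
      simp only [V2, Multiset.map_cons, Multiset.sum_cons]
    have c3 : ((V2 ⟨U, p, p'⟩).map Prod.snd).sum =
        (p.2 - 1) + ((p'.2 - 1) + (((U.erase p).erase p').map Prod.snd).sum) := by
      simp only [V2, Multiset.map_cons, Multiset.sum_cons]
    have c4 : H2 ⟨U, p, p'⟩ =
        20 * q + p.1 + p'.1 - (z U).1 - (z U).2 - Multiset.card U := rfl
    have c5 : ∀ r ∈ V2 ⟨U, p, p'⟩, r = ((z U).1, p.2 - 1) ∨ r = ((z U).2, p'.2 - 1) ∨
        r ∈ U := by
      intro r hr
      simp only [V2, Multiset.mem_cons] at hr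
      rcases hr with hr | hr | hr
      · exact Or.inl hr
      · exact Or.inr (Or.inl hr)
      · exact Or.inr (Or.inr (Multiset.mem_of_mem_erase (Multiset.mem_of_mem_erase hr)))
    refine tg_mem (t := t) hP hq htq ?_ ?_ (by omega) (by omega) (by omega) (by omega) (by omega)
    · intro r hr
      rcases c5 r hr with h | h | h
      · rw [h]
        simp only
        omega
      · rw [h]
        simp only
        omega
      · by_contra h'
        apply g1
        have : r = (0, 0) := by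
          ext
          · simp only
            omega
          · simp only
            omega
        rwa [this] at h
    · intro r hr
      rcases c5 r hr with h | h | h
      · rw [h]
        simp only
        omega
      · rw [h]
        simp only
        omega
      · exact g4 r h
  -- the fibres
  have d1 : ∀ W ∈ T, (s1.filter (fun x => tg (H1 x) (V1 x) = W)).card ≤
      (w + 1) * (w + 1) * (w + 2) := by
    intro W _
    have e0 : (w + 1) * (w + 1) * (w + 2) = ((Finset.range (w + 1) ×ˢ Finset.range (w + 1)) ×ˢ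
        Finset.range (w + 2)).card := by
      simp [Finset.card_product]
    rw [e0]
    apply Finset.card_le_card_of_injOn (fun x => (x.2, (z x.1).1))
    · rintro ⟨U, p⟩ hx
      rw [Finset.mem_coe, Finset.mem_filter] at hx
      obtain ⟨hU, hp, hp2⟩ := f1 _ hx.1
      simp only at hU hp hp2
      obtain ⟨g1, g2, g3, g4, g5⟩ := hSm U hU
      obtain ⟨-, g7, -, -⟩ := hz U g3.le
      have h1 := fst_le hp
      have h2 := snd_le hp
      rw [Finset.mem_coe, Finset.mem_product, Finset.mem_product, Finset.mem_range,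
        Finset.mem_range, Finset.mem_range]
      simp only
      omega
    · rintro ⟨U, p⟩ hx ⟨U', p'⟩ hx' hxx
      rw [Finset.mem_coe, Finset.mem_filter] at hx hx'
      obtain ⟨hU, hp, hp2⟩ := f1 _ hx.1
      obtain ⟨hU', hp', hp2'⟩ := f1 _ hx'.1
      simp only [Prod.mk.injEq] at hxx
      obtain ⟨rfl, hzz⟩ := hxx
      simp only at hU hp hp2 hU' hp' hp2'
      have h1 : tg (H1 ⟨U, p⟩) (V1 ⟨U, p⟩) = tg (H1 ⟨U', p⟩) (V1 ⟨U', p⟩) :=
        hx.2.trans hx'.2.symm
      have e1 := Multiset.cons_erase hp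
      have e1' := Multiset.cons_erase hp'
      have hcU : Multiset.card U = Multiset.card U' := by
        have h2 := congrArg Multiset.card h1
        have e4 : Multiset.card U = Multiset.card (U.erase p) + 1 := by
          conv_lhs => rw [← e1, Multiset.card_cons]
        have e4' : Multiset.card U' = Multiset.card (U'.erase p) + 1 := by
          conv_lhs => rw [← e1', Multiset.card_cons]
        simp only [tg, V1, Multiset.card_cons, Multiset.card_map] at h2
        omega
      have hH : H1 ⟨U, p⟩ = H1 ⟨U', p⟩ := by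
        simp only [H1, hzz, hcU]
      rw [tg, tg, hH, Multiset.cons_inj_right] at h1
      have h2 := Multiset.map_injective sh_inj h1
      simp only [V1, hzz] at h2
      rw [Multiset.cons_inj_right] at h2
      have h3 : U = U' := by rw [← e1, ← e1', h2]
      subst h3
      rfl
  have d2 : ∀ W ∈ T, (s2.filter (fun x => tg (H2 x) (V2 x) = W)).card ≤
      ((w + 1) * (w + 1)) * ((w + 1) * (w + 1)) * ((w + 2) * (w + 2)) := by
    intro W _
    have e0 : ((w + 1) * (w + 1)) * ((w + 1) * (w + 1)) * ((w + 2) * (w + 2)) =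
        (((Finset.range (w + 1) ×ˢ Finset.range (w + 1)) ×ˢ
          (Finset.range (w + 1) ×ˢ Finset.range (w + 1))) ×ˢ
          (Finset.range (w + 2) ×ˢ Finset.range (w + 2))).card := by
      simp [Finset.card_product]
    rw [e0]
    apply Finset.card_le_card_of_injOn (fun x => ((x.2.1, x.2.2), z x.1))
    · rintro ⟨U, p, p'⟩ hx
      rw [Finset.mem_coe, Finset.mem_filter] at hx
      obtain ⟨hU, hp, hp2, hp', hp2'⟩ := f2 _ hx.1
      simp only at hU hp hp2 hp' hp2'
      obtain ⟨g1, g2, g3, g4, g5⟩ := hSm U hU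
      obtain ⟨-, g7, g8, -⟩ := hz U g3.le
      have h1 := fst_le hp
      have h2 := snd_le hp
      have h3 := fst_le (Multiset.mem_of_mem_erase hp')
      have h4 := snd_le (Multiset.mem_of_mem_erase hp')
      rw [Finset.mem_coe, Finset.mem_product, Finset.mem_product, Finset.mem_product,
        Finset.mem_product, Finset.mem_product, Finset.mem_range, Finset.mem_range,
        Finset.mem_range, Finset.mem_range, Finset.mem_range, Finset.mem_range]
      simp only
      omega
    · rintro ⟨U, p, p'⟩ hx ⟨U', r, r'⟩ hx' hxx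
      rw [Finset.mem_coe, Finset.mem_filter] at hx hx'
      obtain ⟨hU, hp, hp2, hp3, hp4⟩ := f2 _ hx.1
      obtain ⟨hU', hr, hr2, hr3, hr4⟩ := f2 _ hx'.1
      simp only [Prod.mk.injEq] at hxx
      obtain ⟨⟨rfl, rfl⟩, hzz⟩ := hxx
      simp only at hU hp hp2 hp3 hp4 hU' hr hr2 hr3 hr4
      have h1 : tg (H2 ⟨U, p, p'⟩) (V2 ⟨U, p, p'⟩) = tg (H2 ⟨U', p, p'⟩) (V2 ⟨U', p, p'⟩) :=
        hx.2.trans hx'.2.symm
      have e1 := Multiset.cons_erase hp
      have e1' := Multiset.cons_erase hr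
      have e2 := Multiset.cons_erase hp3
      have e2' := Multiset.cons_erase hr3
      have hcU : Multiset.card U = Multiset.card U' := by
        have h2 := congrArg Multiset.card h1
        have e4 : Multiset.card U = Multiset.card ((U.erase p).erase p') + 1 + 1 := by
          conv_lhs => rw [← e1, ← e2, Multiset.card_cons, Multiset.card_cons]
        have e4' : Multiset.card U' = Multiset.card ((U'.erase p).erase p') + 1 + 1 := by
          conv_lhs => rw [← e1', ← e2', Multiset.card_cons, Multiset.card_cons]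
        simp only [tg, V2, Multiset.card_cons, Multiset.card_map] at h2
        omega
      have hH : H2 ⟨U, p, p'⟩ = H2 ⟨U', p, p'⟩ := by
        simp only [H2, hzz, hcU]
      rw [tg, tg, hH, Multiset.cons_inj_right] at h1
      have h2 := Multiset.map_injective sh_inj h1
      simp only [V2, hzz] at h2
      rw [Multiset.cons_inj_right, Multiset.cons_inj_right] at h2
      have h3 : U = U' := by rw [← e1, ← e1', ← e2, ← e2', h2]
      subst h3
      rfl
  have k1 := sum_fib s1 T (fun x => tg (H1 x) (V1 x)) m1 c2 _ d1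
  have k2 := sum_fib s2 T (fun x => tg (H2 x) (V2 x)) m2 c2 _ d2
  have key : ∑ U ∈ S, c U ≤ ∑ x ∈ s1, c2 (tg (H1 x) (V1 x)) + ∑ x ∈ s2, c2 (tg (H2 x) (V2 x)) := by
    rw [Finset.sum_sigma, Finset.sum_sigma, ← Finset.sum_add_distrib]
    apply Finset.sum_le_sum
    intro U hU
    obtain ⟨g1, g2, g3, g4, g5⟩ := hSm U hU
    obtain ⟨g6, g7, g8, g9⟩ := hz U g3.le
    refine (hPull U (z U).1 (z U).2 g6 g9).trans ?_
    apply Nat.add_le_add
    · apply Finset.sum_le_sum
      intro p _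
      exact c2_tg hPl hSh _ _
    · rw [Finset.sum_sigma]
      apply Finset.sum_le_sum
      intro p _
      apply Finset.sum_le_sum
      intro p' _
      exact c2_tg hPl hSh _ _
  refine key.trans ((Nat.add_le_add k1 k2).trans ?_)
  rw [← add_mul]
  apply Nat.mul_le_mul_right
  have w1 : (w + 1) * (w + 1) ≤ (w + 2) * (w + 2) := Nat.mul_le_mul (by omega) (by omega)
  have w2 : (w + 1) * (w + 1) * (w + 2) ≤ (w + 2) ^ 3 := by
    calc (w + 1) * (w + 1) * (w + 2) ≤ (w + 2) * (w + 2) * (w + 2) := Nat.mul_le_mul_right _ w1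
      _ = (w + 2) ^ 3 := by ring
  have w3 : ((w + 1) * (w + 1)) * ((w + 1) * (w + 1)) * ((w + 2) * (w + 2)) ≤ (w + 2) ^ 6 := by
    calc ((w + 1) * (w + 1)) * ((w + 1) * (w + 1)) * ((w + 2) * (w + 2)) ≤
          ((w + 2) * (w + 2)) * ((w + 2) * (w + 2)) * ((w + 2) * (w + 2)) :=
          Nat.mul_le_mul_right _ (Nat.mul_le_mul w1 w1)
      _ = (w + 2) ^ 6 := by ring
  have w4 : (w + 2) ^ 3 ≤ (w + 2) ^ 6 := Nat.pow_le_pow_right (by omega) (by norm_num)
  have w5 : 2 * (w + 2) ^ 6 ≤ (w + 2) ^ 8 := by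
    calc 2 * (w + 2) ^ 6 ≤ (w + 2) ^ 2 * (w + 2) ^ 6 := by
          apply Nat.mul_le_mul_right
          calc 2 ≤ w + 2 := by omega
            _ ≤ (w + 2) ^ 2 := Nat.le_self_pow (by norm_num) _
      _ = (w + 2) ^ 8 := by ring
  omega

open scoped Classical in
/-- **(G)** -/
theorem gainC : GainC := by
  intro c c2 hPull hPl hSh a q t N w ht2 htq hq ha haw hNw
  exact gain_gen hPull hPl hSh (P := GoodK (60 * q)) (fun K h1 h2 =>
    ⟨⟨by omega, fun x hx => by have := (h2 x hx).2; omega⟩, fun x hx => (h2 x hx).1⟩)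
    ht2 htq hq hNw

end Vale.Agent.P181.O2.H376
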